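import Vale.Agent.P155.NT904.ClassFin

/-!
# P155, SW, (DJ), lattice half: two different loops which meet a line do not come close to each
other away from the line
-/

namespace Vale.Agent.P155.SW904

open Vale.Agent.P155 T802 T905 J Finset NT NT802 Function Skel Filter

/-- Two different loops which both meet the line `x = xS` come close to each other in
`box q r`. -/
def TwoIn (xS : ℤ) (q : Pt) (r e : ℕ) (ω : Conf) : Prop :=
  ∃ v v', ω.1 v ≠ ω.2 v ∧ ω.1 v' ≠ ω.2 v' ∧ comp ω v ≠ comp ω v' ∧ dn q v ≤ r ∧ dn v v' ≤ e ∧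
    (∃ y, (xS, y) ∈ comp ω v) ∧ ∃ y, (xS, y) ∈ comp ω v'

theorem TwoIn.mono {xS : ℤ} {q : Pt} {r e e' : ℕ} {ω : Conf} (he : e ≤ e')
    (h : TwoIn xS q r e ω) : TwoIn xS q r e' ω := by
  obtain ⟨v, v', h1, h2, h3, h4, h5, h6, h7⟩ := h
  exact ⟨v, v', h1, h2, h3, h4, h5.trans he, h6, h7⟩

section

variable {xS : ℤ} {ω : Conf} {tm : ℕ → ℤ × ℕ} {M : ℕ} {q : Pt} {V : Finset Pt}

/-- the lowest point of a loop on the line -/
theorem lowest (hω : ω ∈ DD V) {v : Pt} (hv : ω.1 v ≠ ω.2 v) (hy : ∃ y, (xS, y) ∈ comp ω v) :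
    ∃ t : ℤ, (xS, t) ∈ comp ω v ∧ ∀ t', (xS, t') ∈ comp ω v → t ≤ t' := by
  obtain ⟨y, hy⟩ := hy
  have hvV := L.mem_V_of_ne hω hv
  have hcV : comp ω v ⊆ (V : Set Pt) := L.comp_subset_V hω hvV
  obtain ⟨t, h1, h2⟩ := Int.exists_least_of_bdd (P := fun t => (xS, t) ∈ comp ω v) (by
    refine ⟨(V.image Prod.snd).inf' ⟨v.2, mem_image_of_mem _ hvV⟩ id, fun z hz => ?_⟩
    exact Finset.inf'_le id (mem_image.2 ⟨(xS, z), hcV hz, rfl⟩)) ⟨y, hy⟩
  exact ⟨t, h1, h2⟩

/-- the loop of `v` starts above a point of the line on the loop of `v'` -/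
theorem Walk.touch_aux (hω : ω ∈ DD V) (W : Walk V xS ω tm M) {T : Temp} {r r' h K : ℕ}
    (hr : 1 ≤ r) (hx : (16 * r : ℤ) ≤ |q.1 - xS|) (hr' : r' ≤ 2 * r)
    {v v' : Pt} (hv : ω.1 v ≠ ω.2 v) (hvr : dn q v ≤ r') (hd : dn v v' ≤ h)
    {t t' : ℤ} (ht : (xS, t) ∈ comp ω v) (hmin : ∀ s, (xS, s) ∈ comp ω v → t ≤ s)
    (ht' : (xS, t') ∈ comp ω v') (htt : t' < t)
    (hK : NX ω q (2 * r) (4 * r) ≤ K) :
    ∃ k < K, Touching T (Ex' xS ω (tm (ent M (fun n => pt' xS ω (tm n)) q (2 * r) (4 * r) k)))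
      (fun n => pt' xS ω (tm n)) (ent M (fun n => pt' xS ω (tm n)) q (2 * r) (4 * r) k)
      (exi M (fun n => pt' xS ω (tm n)) q (2 * r) (4 * r) (k + 1)) q r' h := by
  classical
  set g : ℕ → Pt := fun n => pt' xS ω (tm n) with hg
  have hvV := L.mem_V_of_ne hω hv
  have hcV : comp ω v ⊆ (V : Set Pt) := L.comp_subset_V hω hvV
  set s : Pt := (xS, t) with hs
  have hsV : s ∈ V := hcV ht
  have hcomp : comp ω s = comp ω v := L.comp_eq_of_mem hω ht
  have hnE : s ∉ Et xS ω t := by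
    rintro ⟨y', hy', h1⟩
    have h2 : (xS, y') ∈ comp ω v := by
      rw [← hcomp]; exact L.same_symm hω h1
    exact absurd (hmin y' h2) (by omega)
  obtain ⟨n0, hrun⟩ := W.run hsV hnE
  have hgo : ∀ i < (comp ω s).ncard, g (n0 + i) = go ω s i := by
    intro i hi
    show pt' xS ω (tm (n0 + i)) = _
    rw [(hrun i hi).2]
    rfl
  have hx2 : ((4 * r : ℕ) + 2 : ℤ) < |q.1 - xS| := by push_cast; omega
  obtain ⟨u, hu, hgu⟩ := go_mem hω hsV (v := v) (by rw [hcomp]; exact L.same_refl _ _)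
  have huM := (hrun u hu).1
  have hub : g (n0 + u) ∈ box q r' := by
    rw [hgo u hu, hgu]; exact J.dn_le_iff.1 hvr
  obtain ⟨k, c1, c2⟩ := cover (g := g) (R := 4 * r) (by omega : 2 * r ≤ 4 * r) huM
    (box_mono hr' hub)
  have hk : k < K := lt_of_lt_of_le (W.count hω (by omega) hx2 (lt_of_le_of_lt c1 huM)) hK
  refine ⟨k, hk, n0 + u, c1, c2, hub, v', ?_, by rw [hgo u hu, hgu]; exact hd⟩
  -- the excursion begins after the start of the loop of `v`
  have h0 : n0 ≤ ent M g q (2 * r) (4 * r) k := by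
    by_contra hc
    have h1 := in_box (N := M) (g := g) (q := q) (r0 := 2 * r) (R := 4 * r) (k := k) (i := n0)
      (by omega) (by omega)
    have h2 : g n0 = s := by
      have := hgo 0 (by have := hu; omega)
      rw [add_zero] at this
      rw [this]
      exact go0 _ _
    rw [h2, ← J.dn_le_iff] at h1
    have h3 : 16 * r ≤ dn q s := dn_line (r := r) (q := q) (xS := xS) (t := t) hx
    omega
  set n := ent M g q (2 * r) (4 * r) k with hn
  have hlt : n - n0 < (comp ω s).ncard := lt_of_le_of_lt (by omega) hu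
  have htn : (tm n).1 = t := by
    have h1 := (hrun (n - n0) hlt).2
    rw [show n0 + (n - n0) = n by omega] at h1
    rw [h1]
  apply not_free
  -- `v'` was explored before
  show v' ∈ Eti xS ω (tm n).1 (tm n).2
  left
  rw [htn]
  exact ⟨t', htt, L.same_symm hω ht'⟩

/-- **two loops**: they touch in one of the first `K` excursions -/
theorem Walk.touch2 (hω : ω ∈ DD V) (W : Walk V xS ω tm M) {T : Temp} {r e : ℕ} {K : ℕ}
    (hr : 1 ≤ r) (hx : (16 * r : ℤ) ≤ |q.1 - xS|) (her : r + e ≤ 2 * r)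
    (ht : TwoIn xS q r e ω) (hK : NX ω q (2 * r) (4 * r) ≤ K) :
    ∃ k < K, Touching T (Ex' xS ω (tm (ent M (fun n => pt' xS ω (tm n)) q (2 * r) (4 * r) k)))
      (fun n => pt' xS ω (tm n)) (ent M (fun n => pt' xS ω (tm n)) q (2 * r) (4 * r) k)
      (exi M (fun n => pt' xS ω (tm n)) q (2 * r) (4 * r) (k + 1)) q (r + e) e := by
  obtain ⟨v, v', hv, hv', hne, hvr, hd, hy, hy'⟩ := ht
  obtain ⟨t, h1, h2⟩ := lowest hω hv hy
  obtain ⟨t', h1', h2'⟩ := lowest hω hv' hy'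
  rcases lt_trichotomy t t' with h | h | h
  · refine Walk.touch_aux hω W hr hx her hv' (v' := v) ?_ ?_ h1' h2' h1 h hK
    · exact (H904.dn_tri q v v').trans (by omega)
    · rw [H904.dn_comm]; exact hd
  · subst h
    exact absurd ((L.comp_eq_of_mem hω h1).symm.trans (L.comp_eq_of_mem hω h1')) hne
  · exact Walk.touch_aux hω W hr hx her hv (v' := v') (by omega) hd h1 h2 h1' h hK

end

/-- a loop which visits `box q r` and meets the line is large -/
theorem r_le_R {T : Temp} {R : ℕ} (hfit : Fits T R) {xS : ℤ} {q : Pt} {r e : ℕ} {ω : Conf}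
    (hω : ω ∈ DD T.V) (hx : (16 * r : ℤ) ≤ |q.1 - xS|) (ht : TwoIn xS q r e ω)
    (hR : 1 ≤ R) : r ≤ R := by
  obtain ⟨v, _, hv, _, _, hvr, _, ⟨y, hy⟩, _⟩ := ht
  have hvV := L.mem_V_of_ne hω hv
  have hyV : (xS, y) ∈ T.V := L.comp_subset_V hω hvV hy
  have h1 := mem_box_coord.1 (mem_V_box hfit hvV)
  have h2 := mem_box_coord.1 (mem_V_box hfit hyV)
  have h3 := (T802.dn_le_iff (p := q) (x := v) (r := r)).1 hvr
  simp only at h1 h2
  push_cast at h1 h2
  rw [le_abs] at hx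
  omega

/-- the conclusion for a class of polygons -/
def TWOPc (Cl : ℕ → Temp → Prop) : Prop :=
  ∀ c ε : ℝ, 0 < c → 0 < ε → ∀ K : ℕ, ∃ η : ℝ, 0 < η ∧ ∃ R0 : ℕ, ∀ R : ℕ, R0 ≤ R → ∀ T : Temp,
    Fits T R → Cl R T → ∀ (xS : ℤ) (q : Pt) (r : ℕ), c * R ≤ r → (16 * r : ℤ) ≤ |q.1 - xS| →
    Pr T.V (fun ω => TwoIn xS q r ⌊η * R⌋₊ ω ∧ NX ω q (2 * r) (4 * r) ≤ K) ≤ ε

/-- **two loops do not touch** -/
theorem two_c {Cl : ℕ → Temp → Prop} (hL : LassoP) (hone : OneStepC Cl) : TWOPc Cl := by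
  classical
  intro c ε hc hε K
  obtain ⟨δ, hδ⟩ : ∃ δ : ℝ, δ = c / (16 * (K + 1)) := ⟨_, rfl⟩
  have hK0 : (0 : ℝ) < K + 1 := by positivity
  have hδ0 : 0 < δ := by rw [hδ]; positivity
  have hε' : 0 < ε / (K + 1) := by positivity
  choose! F hF G hG using fun (d : ℝ) (hd : 0 < d) => hone c δ d (ε / (K + 1)) hc hδ0 hd hε'
  -- the scales
  obtain ⟨d, hd0, hds⟩ : ∃ d : ℕ → ℝ, d 0 = 1 ∧ ∀ k, d (k + 1) = min (d k) (F (d k) / 4) :=
    ⟨fun k => Nat.rec 1 (fun _ x => min x (F x / 4)) k, rfl, fun _ => rfl⟩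
  have hdpos : ∀ k, 0 < d k := by
    intro k
    induction k with
    | zero => rw [hd0]; exact one_pos
    | succ k ih => rw [hds]; exact lt_min ih (by have := hF _ ih; positivity)
  have hdle : ∀ k, d (k + 1) ≤ d k := fun k => by rw [hds]; exact min_le_left _ _
  have hdF : ∀ k, 4 * d (k + 1) ≤ F (d k) := fun k => by
    have : d (k + 1) ≤ F (d k) / 4 := by rw [hds]; exact min_le_right _ _
    linarith
  have hanti : Antitone d := antitone_nat_of_succ_le hdle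
  obtain ⟨η, hη⟩ : ∃ η : ℝ, η = min (c / 8) (d (K + 1)) := ⟨_, rfl⟩
  have hη0 : 0 < η := by rw [hη]; exact lt_min (by positivity) (hdpos _)
  have hηc : η ≤ c / 8 := by rw [hη]; exact min_le_left _ _
  have hηF : ∀ k < K, η ≤ F (d k) := by
    intro k hk
    have h1 : η ≤ d (K + 1) := by rw [hη]; exact min_le_right _ _
    have h2 : d (K + 1) ≤ d (k + 1) := hanti (by omega)
    have h3 := hdF k
    have h4 := hdpos (k + 1)
    linarith
  -- large `R`
  obtain ⟨R0, hR0⟩ : ∃ R0 : ℕ, ∀ R : ℕ, R0 ≤ R → 1 ≤ R ∧ (∀ k ∈ Finset.range (K + 1), G (d k) ≤ R ∧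
      8 ≤ F (d k) * R) ∧ 8 ≤ δ * R ∧ (2 * K + 12 : ℝ) ≤ 3 / 4 * (c * R) := by
    have e1 : ∀ x : ℝ, 0 < x → ∀ y : ℝ, ∀ᶠ R : ℕ in atTop, y ≤ x * R := by
      intro x hx y
      have := (tendsto_natCast_atTop_atTop (R := ℝ)).const_mul_atTop hx
      exact this.eventually_ge_atTop y
    have e2 : ∀ᶠ R : ℕ in atTop, 1 ≤ R ∧ (∀ k ∈ Finset.range (K + 1), G (d k) ≤ R ∧
      8 ≤ F (d k) * R) ∧ 8 ≤ δ * R ∧ (2 * K + 12 : ℝ) ≤ 3 / 4 * (c * R) := by
      refine (eventually_ge_atTop 1).and (((Finset.range (K + 1)).eventually_all.2 fun k _ => ?_).and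
        ((e1 δ hδ0 8).and ?_))
      · exact (eventually_ge_atTop (G (d k))).and (e1 _ (hF _ (hdpos k)) 8)
      · have := e1 (3 / 4 * c) (by positivity) (2 * K + 12)
        exact this.mono fun R h => by rw [← mul_assoc]; exact h
    exact eventually_atTop.1 e2
  refine ⟨η, hη0, R0, ?_⟩
  intro R hR T hfit hCl xS q r hcr hx
  obtain ⟨hR1, hRk, hRδ, hRc⟩ := hR0 R hR
  have hRr : (1 : ℝ) ≤ R := by exact_mod_cast hR1
  have hcR : 0 < c * R := by positivity
  have hr1 : 1 ≤ r := by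
    have : (0 : ℝ) < r := by linarith
    exact_mod_cast this
  by_cases hrR : r ≤ R
  swap
  · -- the event is empty
    have : Pr T.V (fun ω => TwoIn xS q r ⌊η * R⌋₊ ω ∧ NX ω q (2 * r) (4 * r) ≤ K) ≤
        Pr T.V (fun _ => False) :=
      E.Pr_mono fun ω hω h => hrR (r_le_R hfit hω hx h.1 hR1)
    refine this.trans ?_
    have : Pr T.V (fun _ => False) = 0 := by
      rw [E.Pr_eq_avg]
      simp [avg]
    rw [this]
    exact hε.le
  -- the boxes
  obtain ⟨b, hb⟩ : ∃ b : ℕ, b = ⌈δ * R⌉₊ := ⟨_, rfl⟩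
  have hb1 : δ * R ≤ b := by rw [hb]; exact Nat.le_ceil _
  have hb2 : (b : ℝ) ≤ δ * R + 1 := by rw [hb]; exact (Nat.ceil_lt_add_one (by positivity)).le
  have hb8 : 8 ≤ b := by
    have : (8 : ℝ) ≤ b := hRδ.trans hb1
    exact_mod_cast this
  obtain ⟨e, he⟩ : ∃ e : ℕ, e = ⌊η * R⌋₊ := ⟨_, rfl⟩
  have he1 : (e : ℝ) ≤ c / 8 * R := by
    rw [he]
    exact (Nat.floor_le (by positivity)).trans (mul_le_mul_of_nonneg_right hηc (by positivity))
  rw [← he]
  have hgeo : (2 * K + 1) * b + 6 + e ≤ r := by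
    have h1 : (2 * K + 1 : ℝ) * b ≤ (2 * K + 2) * (δ * R + 1) := by
      have h2 : (0 : ℝ) ≤ K := Nat.cast_nonneg _
      have h3 : (0 : ℝ) ≤ b := Nat.cast_nonneg _
      calc (2 * K + 1 : ℝ) * b ≤ (2 * K + 2) * b := by nlinarith
        _ ≤ _ := mul_le_mul_of_nonneg_left hb2 (by positivity)
    have h2 : (2 * K + 2 : ℝ) * (δ * R + 1) = c * R / 8 + (2 * K + 2) := by
      rw [hδ]
      field_simp
      ring
    have h3 : (2 * K + 1 : ℝ) * b + 6 + e ≤ r := by
      rw [h2] at h1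
      nlinarith
    exact_mod_cast h3
  set rs : ℕ → ℕ := fun k => 2 * r - 3 - 2 * (b * k) with hrs
  set rt : ℕ → ℕ := fun k => 2 * r - 3 - 2 * (b * k) - b with hrt
  have hbK : (2 * K + 1) * b = 2 * (b * K) + b := by ring
  rw [hbK] at hgeo
  have hbk : ∀ k ≤ K, b * k ≤ b * K := fun k hk => Nat.mul_le_mul_left b hk
  -- the inclusion of events
  have hincl : ∀ ω ∈ DD T.V, (TwoIn xS q r e ω ∧ NX ω q (2 * r) (4 * r) ≤ K) →
      ∃ k ∈ Finset.range K, SepN T xS ω q r k (rs k) ⌊d k * R⌋₊ ∧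
        TouN T xS ω q r k (rt k) ⌊F (d k) * R⌋₊ := by
    rintro ω hω ⟨ht, hN⟩
    obtain ⟨k, hk, hk2⟩ := Walk.touch2 (T := T) hω (walk hω xS) hr1 hx (by omega) ht hN
    have hk3 : TouN T xS ω q r k (rt k) ⌊F (d k) * R⌋₊ := by
      refine Touching.mono ?_ ?_ hk2
      · have := hbk k hk.le
        simp only [hrt]
        omega
      · rw [he]
        exact Nat.floor_mono (mul_le_mul_of_nonneg_right (hηF k hk) (by positivity))
    obtain ⟨k', hk', h1, h2⟩ := first_touch hL hω hr1 hx (rs := rs) (rt := rt)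
      (ds := fun k => ⌊d k * R⌋₊) (hs := fun k => ⌊F (d k) * R⌋₊) (K := K)
      (fun k _ => by simp only [hrs]; omega)
      (fun k hk => by
        have h1 : b * (k + 1) = b * k + b := by ring
        simp only [hrs]
        omega)
      (fun k hk => Nat.floor_mono (mul_le_mul_of_nonneg_right (hdle k) (by positivity)))
      (fun k hk => by
        have h1 : b * (k + 1) = b * k + b := by ring
        have h2 := hbk (k + 1) hk.le
        simp only [hrs, hrt]
        omega)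
      (fun k hk => by
        have h1 := (hRk k (Finset.mem_range.2 (by omega))).2
        have h2 := hdF k
        have h3 : ((⌊d (k + 1) * R⌋₊ : ℕ) : ℝ) ≤ d (k + 1) * R :=
          Nat.floor_le (by have := hdpos (k + 1); positivity)
        apply Nat.le_floor
        push_cast
        have h4 : 4 * (d (k + 1) * R) ≤ F (d k) * R := by
          have := mul_le_mul_of_nonneg_right h2 (by positivity : (0 : ℝ) ≤ R)
          linarith
        linarith)
      ⟨k, hk, hk3⟩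
    exact ⟨k', Finset.mem_range.2 hk', h1, h2⟩
  refine (E.Pr_mono hincl).trans ?_
  refine (E.Pr_exists_le_card T.V (Finset.range K) (fun k ω => SepN T xS ω q r k (rs k) ⌊d k * R⌋₊ ∧
    TouN T xS ω q r k (rt k) ⌊F (d k) * R⌋₊) (b := ε / (K + 1)) ?_).trans ?_
  · intro k hk
    rw [Finset.mem_range] at hk
    have h1 := hbk k hk.le
    refine hG (d k) (hdpos k) R (hRk k (Finset.mem_range.2 (by omega))).1 T hfit hCl xS q r (rs k)
      (rt k) k hcr hrR hx ?_ ?_ ?_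
    · simp only [hrt]
      omega
    · have h2 : rt k + b = rs k := by
        simp only [hrs, hrt]
        omega
      have h3 : (rs k : ℝ) = rt k + b := by rw [← h2]; push_cast; ring
      rw [h3]
      linarith
    · simp only [hrs]
      omega
  · rw [Finset.card_range]
    have h1 : (K : ℝ) * (ε / (K + 1)) = ε * (K / (K + 1)) := by ring
    rw [h1]
    have h2 : (K : ℝ) / (K + 1) ≤ 1 := by
      rw [div_le_one hK0]
      linarith
    nlinarith

/-- for the polygons of one approximation -/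
theorem two_all (h : OneStepAll) {Ω : Set ℂ} (hΩ : IsOpen Ω) (hb : Bornology.IsBounded Ω)
    (hne : Ω.Nonempty) (hsc : SimplyConnectedSpace Ω) (S : TempApprox Ω) (M : ℝ) (hM : 0 < M) :
    TWOPc (FS M S) :=
  two_c NT924.lassoP (h hΩ hb hne hsc S M hM).1

end Vale.Agent.P155.SW904
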